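import Vale.Agent.P358.Defs

/-! Interface of the P358 modules. Every `sorry` here is proved in the module named in the
comment, under the same name; replace the import of this file by the imports of those modules. -/

namespace Vale.Agent.P358

open Matrix
open scoped ComplexOrder

section Cmp
-- module Cmp.lean
theorem cmp_eta {α β : Type*} [Fintype α] [Fintype β] (x : α → ℝ) (y : β → ℝ)
    (hx : ∀ i, 0 ≤ x i) (hy : ∀ j, 0 ≤ y j) (hs : ∑ i, x i = ∑ j, y j)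
    (h : ∀ l : ℝ, 0 < l → ∏ j, (1 + l * y j) ≤ ∏ i, (1 + l * x i)) :
    ∑ j, Real.negMulLog (y j) ≤ ∑ i, Real.negMulLog (x i) := by
  sorry
end Cmp

section Sc
-- module Sc.lean
theorem Fsc_subadd {κ : Type*} [Fintype κ] (u v w : κ → ℝ) (hu : ∀ k, 0 ≤ u k)
    (hv : ∀ k, 0 ≤ v k) (hw : ∀ k, 0 ≤ w k) :
    Fsc (∑ k, u k) (∑ k, v k) (∑ k, w k) ≤ ∑ k, Fsc (u k) (v k) (w k) := by
  sorry
end Sc

variable {ι κ : Type*} [Fintype ι] [DecidableEq ι] [Fintype κ] [DecidableEq κ]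

section Pin
-- module Pin.lean
theorem pin (U V : Matrix ι ι ℂ) (hU : U.PosDef) (hV : V.PosDef) (a : ι → ℝ) :
    (U.det * V.det).re * ∏ k, ((U k k).re * (V k k).re + a k ^ 2) ≤
      (fromBlocks U (diagonal fun k => (a k : ℂ)) (-(diagonal fun k => (a k : ℂ))) V).det.re *
        ∏ k, ((U k k).re * (V k k).re) := by
  sorry
end Pin

section Svd
-- module Svd.lean
theorem exists_svd (A : Matrix ι ι ℂ) : ∃ (P Q : Matrix ι ι ℂ) (a : ι → ℝ),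
    Pᴴ * P = 1 ∧ P * Pᴴ = 1 ∧ Qᴴ * Q = 1 ∧ Q * Qᴴ = 1 ∧
      A = P * (diagonal fun k => (a k : ℂ)) * Q ∧ ∀ k, 0 ≤ a k := by
  sorry
end Svd

section Ent
-- module Ent.lean
theorem ent_of_charpoly {M : Matrix ι ι ℂ} (hM : M.IsHermitian) (f : ι → ℝ)
    (h : M.charpoly = ∏ i, (Polynomial.X - Polynomial.C ((f i : ℝ) : ℂ))) :
    ent M = ∑ i, Real.negMulLog (f i) := by
  sorry

theorem ent_congr {M N : Matrix ι ι ℂ} (hM : M.IsHermitian) (hN : N.IsHermitian)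
    (h : M.charpoly = N.charpoly) : ent M = ent N := by
  sorry

theorem ent_eq_eig {M : Matrix ι ι ℂ} (hM : M.IsHermitian) :
    ent M = ∑ i, Real.negMulLog (hM.eigenvalues i) := by
  sorry

theorem ent_diagonal (f : ι → ℝ) :
    ent (diagonal fun i => ((f i : ℝ) : ℂ)) = ∑ i, Real.negMulLog (f i) := by
  sorry

theorem ent_unitary {M : Matrix ι ι ℂ} (hM : M.IsHermitian) (U : Matrix ι ι ℂ)
    (hU : Uᴴ * U = 1) : ent (U * M * Uᴴ) = ent M := by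
  sorry

theorem ent_submatrix (e : κ ≃ ι) (M : Matrix ι ι ℂ) : ent (M.submatrix e e) = ent M := by
  sorry

theorem ent_mul_conj_comm (X : Matrix ι ι ℂ) : ent (X * Xᴴ) = ent (Xᴴ * X) := by
  sorry

theorem ent_smul {M : Matrix ι ι ℂ} (hM : M.IsHermitian) (c : ℝ) :
    ent ((c : ℂ) • M) = c * ent M + Real.negMulLog c * M.trace.re := by
  sorry

theorem ent_two (M : Matrix (Fin 2) (Fin 2) ℂ) (hM : M.IsHermitian) (a b : ℝ)
    (ht : M.trace = ((a + b : ℝ) : ℂ)) (hd : M.det = ((a * b : ℝ) : ℂ)) :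
    ent M = Real.negMulLog a + Real.negMulLog b := by
  sorry

theorem ent_nonneg {M : Matrix ι ι ℂ} (hM : IsState M) : 0 ≤ ent M := by
  sorry

theorem ent_le_card {M : Matrix ι ι ℂ} (hM : IsState M) : ent M ≤ Fintype.card ι := by
  sorry

theorem det_one_add {M : Matrix ι ι ℂ} (hM : M.IsHermitian) (l : ℝ) :
    (1 + (l : ℂ) • M).det = ((∏ i, (1 + l * hM.eigenvalues i) : ℝ) : ℂ) := by
  sorry
end Ent

section EntConc
-- module EntConc.lean (imports Ent)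
theorem ent_le_diag {M : Matrix ι ι ℂ} (hM : M.PosSemidef) (U : Matrix ι ι ℂ)
    (hU : Uᴴ * U = 1) :
    ent M ≤ ∑ i, Real.negMulLog ((Uᴴ * M * U) i i).re := by
  sorry

theorem ent_concave {α : Type*} [Fintype α] (q : α → ℝ) (hq : ∀ a, 0 ≤ q a)
    (hs : ∑ a, q a = 1) (M : α → Matrix ι ι ℂ) (hM : ∀ a, (M a).PosSemidef) :
    ∑ a, q a * ent (M a) ≤ ent (∑ a, (q a : ℂ) • M a) := by
  sorry

theorem ent_subadd (R : Matrix (ι ⊕ ι) (ι ⊕ ι) ℂ) (hR : IsState R) :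
    ent R ≤ Real.negMulLog R.toBlocks₁₁.trace.re + Real.negMulLog R.toBlocks₂₂.trace.re
      + ent (R.toBlocks₁₁ + R.toBlocks₂₂) := by
  sorry
end EntConc

section Tens
-- module Tens.lean (imports Ent)
theorem tens_isState {ρ : Matrix (Fin 2) (Fin 2) ℂ} {σ : Matrix ι ι ℂ} (h1 : IsState ρ)
    (h2 : IsState σ) : IsState (tens ρ σ) := by
  sorry

theorem ent_tens {ρ : Matrix (Fin 2) (Fin 2) ℂ} {σ : Matrix ι ι ℂ} (h1 : IsState ρ)
    (h2 : IsState σ) : ent (tens ρ σ) = ent ρ + ent σ := by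
  sorry
end Tens

section Blk
-- module Blk.lean (imports Cmp, Sc, Pin, Svd, Ent)
theorem E3 (A B C : Matrix ι ι ℂ) :
    ent (A * Aᴴ) + ent (B * Bᴴ) + ent (C * Cᴴ)
      + Fsc (A * Aᴴ).trace.re (B * Bᴴ).trace.re (C * Cᴴ).trace.re ≤
    ent (fromBlocks A B C 0 * (fromBlocks A B C 0)ᴴ) := by
  sorry
end Blk

section Kraus
-- module Kraus.lean : Kraus channels and `dchan`
theorem kr_add {ε : Type*} [Fintype ε] (K : ε → Matrix ι ι ℂ) (ρ σ : Matrix ι ι ℂ) :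
    kr K (ρ + σ) = kr K ρ + kr K σ := by
  sorry

theorem kr_smul {ε : Type*} [Fintype ε] (K : ε → Matrix ι ι ℂ) (c : ℂ) (ρ : Matrix ι ι ℂ) :
    kr K (c • ρ) = c • kr K ρ := by
  sorry

theorem kr_psd {ε : Type*} [Fintype ε] (K : ε → Matrix ι ι ℂ) {ρ : Matrix ι ι ℂ}
    (h : ρ.PosSemidef) : (kr K ρ).PosSemidef := by
  sorry

theorem kr_trace {ε : Type*} [Fintype ε] (K : ε → Matrix ι ι ℂ)
    (hK : ∑ e, (K e)ᴴ * K e = 1) (ρ : Matrix ι ι ℂ) : (kr K ρ).trace = ρ.trace := by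
  sorry

/-- The Kraus family of `dchan γ (kr K)`. -/
theorem dchan_kr (γ : ℝ) (h0 : 0 ≤ γ) (h1 : γ ≤ 1) (K : ι → Matrix ι ι ℂ)
    (R : Matrix (ι ⊕ ι) (ι ⊕ ι) ℂ) :
    dchan γ (kr K) R = kr (fun e : ι ⊕ ι => Sum.elim
      (fun e => fromBlocks (K e) 0 0 ((Real.sqrt (1 - γ) : ℂ) • K e))
      (fun e => fromBlocks 0 ((Real.sqrt γ : ℂ) • K e) 0 0) e) R := by
  sorry

/-- The output on a pure state is `T Tᴴ`. -/
theorem dchan_pure (γ : ℝ) (h0 : 0 ≤ γ) (h1 : γ ≤ 1) (K : ι → Matrix ι ι ℂ) (f g : ι → ℂ) :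
    dchan γ (kr K) (outer (Sum.elim f g) (Sum.elim f g)) =
      fromBlocks (colm K f) ((Real.sqrt γ : ℂ) • colm K g) ((Real.sqrt (1 - γ) : ℂ) • colm K g) 0 *
      (fromBlocks (colm K f) ((Real.sqrt γ : ℂ) • colm K g)
        ((Real.sqrt (1 - γ) : ℂ) • colm K g) 0)ᴴ := by
  sorry

theorem kr_outer {ε : Type*} [Fintype ε] (K : ε → Matrix ι ι ℂ) (f : ι → ℂ) :
    kr K (outer f f) = colm K f * (colm K f)ᴴ := by
  sorry

theorem exists_pure_decomp (ρ : Matrix ι ι ℂ) (h : ρ.PosSemidef) :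
    ∃ (p : ι → ℝ) (ψ : ι → ι → ℂ), (∀ i, 0 ≤ p i) ∧ (∀ i, (outer (ψ i) (ψ i)).trace = 1) ∧
      ρ = ∑ i, (p i : ℂ) • outer (ψ i) (ψ i) := by
  sorry
end Kraus

section Upper
-- module Upper.lean (imports Blk, EntConc, Kraus)
theorem dchan_pure_ent (γ : ℝ) (h0 : 0 ≤ γ) (h1 : γ ≤ 1) (K : ι → Matrix ι ι ℂ)
    (hK : ∑ e, (K e)ᴴ * K e = 1) (f g : ι → ℂ)
    (hfg : (outer f f).trace.re + (outer g g).trace.re = 1) :
    ent (kr K (outer f f)) + ent (kr K (outer g g)) - Real.negMulLog (outer f f).trace.re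
      - Real.negMulLog (outer g g).trace.re
      + Real.negMulLog (mup (outer f f).trace.re (γ * (outer g g).trace.re)
          ((1 - γ) * (outer g g).trace.re))
      + Real.negMulLog (mum (outer f f).trace.re (γ * (outer g g).trace.re)
          ((1 - γ) * (outer g g).trace.re)) ≤
    ent (dchan γ (kr K) (outer (Sum.elim f g) (Sum.elim f g))) := by
  sorry

theorem upper (γ : ℝ) (h0 : 0 ≤ γ) (h1 : γ ≤ 1) (K : ι → Matrix ι ι ℂ)
    (hK : ∑ e, (K e)ᴴ * K e = 1) (r : ℝ) (hr : r ∈ hol (dchan γ (kr K))) :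
    ∃ r1 ∈ hol (gadc γ 0), ∃ r2 ∈ hol (kr K), r ≤ r1 + r2 := by
  sorry
end Upper

section Lower
-- module Lower.lean (imports Tens, Kraus)
theorem lower (γ : ℝ) (h0 : 0 ≤ γ) (h1 : γ ≤ 1) (K : ι → Matrix ι ι ℂ)
    (hK : ∑ e, (K e)ᴴ * K e = 1) (r1 r2 : ℝ) (hr1 : r1 ∈ hol (gadc γ 0))
    (hr2 : r2 ∈ hol (kr K)) : r1 + r2 ∈ hol (dchan γ (kr K)) := by
  sorry
end Lower

section Tensor
-- module Tensor.lean (imports Ent)
theorem gpow_eq_kr (γ : ℝ) (h0 : 0 ≤ γ) (h1 : γ ≤ 1) (n : ℕ) :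
    ∃ K : (Fin n → Fin 2) → Matrix (Fin n → Fin 2) (Fin n → Fin 2) ℂ,
      ∑ e, (K e)ᴴ * K e = 1 ∧ gpow γ 0 n = kr K := by
  sorry

theorem hol_gpow_succ (γ : ℝ) (n : ℕ) :
    hol (gpow γ 0 (n + 1)) = hol (dchan γ (gpow γ 0 n)) := by
  sorry

theorem hol_gpow_zero (γ : ℝ) : hol (gpow γ 0 0) = {0} := by
  sorry
end Tensor

section Main
-- module Main.lean (imports everything)
theorem hol_bdd {ε : Type*} [Fintype ε] (K : ε → Matrix ι ι ℂ) (hK : ∑ e, (K e)ᴴ * K e = 1) :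
    BddAbove (hol (kr K)) := by
  sorry

theorem holevoSet_eq {ι κ : Type*} [Fintype ι] [Fintype κ] [DecidableEq κ]
    (Φ : Matrix ι ι ℂ → Matrix κ κ ℂ) : holevoSet Φ = (fun r => r / Real.log 2) '' hol Φ := by
  sorry

theorem main_thm (γ : ℝ) (h0 : 0 ≤ γ) (h1 : γ ≤ 1) :
    (∀ n, BddAbove (holevoSet (gpow γ 0 n))) ∧
    (∀ n : ℕ, chi (gpow γ 0 n) = n * chi (gadc γ 0)) ∧
    capacity γ 0 = chi (gadc γ 0) := by
  sorry
end Main

end Vale.Agent.P358
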