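import Vale.Agent.P358.DefsG

/-! Interface for general `ν`. Each statement is proved in the file named in the comment, under the
same name, importing DefsG and the real modules (not this file). -/

namespace Vale.Agent.P358

open Matrix
open scoped ComplexOrder

section Eta
-- G1 EtaTwo.lean
theorem eta2_mono {s t : ℝ} (hs : 0 ≤ s) (hst : s ≤ t) (ht : t ≤ 1 / 4) : eta2 s ≤ eta2 t := by
  sorry

theorem eta2_mu {u v w : ℝ} (hu : 0 ≤ u) (hv : 0 ≤ v) (hw : 0 ≤ w) (h : u + v + w = 1) :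
    Real.negMulLog (mup u v w) + Real.negMulLog (mum u v w) = eta2 (v * w) := by
  sorry

theorem del_nonneg {γ ν q : ℝ} (h0 : 0 ≤ γ) (h1 : γ ≤ 1) (n0 : 0 ≤ ν) (n1 : ν ≤ 1)
    (q0 : 0 ≤ q) (q1 : q ≤ 1) : 0 ≤ del γ ν q := by
  sorry
end Eta

section Scal
-- G3 ScalG.lean: the zero corner
theorem exists_LR {γ ν : ℝ} (h0 : 0 < γ) (h1 : γ ≤ 1) (n0 : 0 < ν) (n1 : ν < 1) (s : ℝ)
    (hs : s = 1 ∨ s = -1) :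
    ∃ L R : Matrix (Fin 2) (Fin 2) ℂ, Lᴴ * L = 1 ∧ L * Lᴴ = 1 ∧ Rᴴ * R = 1 ∧ R * Rᴴ = 1 ∧
      (∀ x y : ℂ, (L * arr γ ν s x y * R) 1 1 = 0) ∧
      ∀ (ι : Type) (_ : Fintype ι) (f g : ι → ℂ), (∑ i, f i * star (g i)).im = 0 →
        (1 - γ * ν) * (γ * ν) * (∑ i, ‖f i‖ ^ 2) ^ 2
          + (1 - γ * (1 - ν)) * (γ * (1 - ν)) * (∑ i, ‖g i‖ ^ 2) ^ 2
          + 2 * (γ * (1 - ν)) * (γ * ν) * ((∑ i, ‖f i‖ ^ 2) * (∑ i, ‖g i‖ ^ 2)) ≤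
        (∑ i, ‖(L * arr γ ν s (f i) (g i) * R) 0 1‖ ^ 2) *
          (∑ i, ‖(L * arr γ ν s (f i) (g i) * R) 1 0‖ ^ 2) := by
  sorry

theorem tt_norm {γ ν : ℝ} (h0 : 0 < γ) (h1 : γ ≤ 1) (n0 : 0 < ν) (n1 : ν < 1) (s : ℝ)
    (hs : s = 1 ∨ s = -1) : tt γ ν s * star (tt γ ν s) = ((1 - γ * (1 - ν) : ℝ) : ℂ) := by
  sorry

theorem ww_norm {γ ν : ℝ} (h0 : 0 < γ) (n0 : 0 < ν) (s : ℝ)
    (hs : s = 1 ∨ s = -1) : ww γ ν s * star (ww γ ν s) = ((γ * ν : ℝ) : ℂ) := by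
  sorry

theorem tt_avg {γ ν : ℝ} (h0 : 0 < γ) (h1 : γ ≤ 1) (n0 : 0 < ν) (n1 : ν < 1) :
    ((Real.sqrt (1 - γ * ν) : ℝ) : ℂ) * (tt γ ν 1 + tt γ ν (-1))
      = 2 * ((Real.sqrt (1 - γ) : ℝ) : ℂ) := by
  sorry
end Scal

section Rect
-- G0 RectE.lean : rectangular version of E3 (pad with zeros)
theorem E3r {ι ε : Type*} [Fintype ι] [DecidableEq ι] [Fintype ε] [DecidableEq ε]
    (A B C : Matrix ι ε ℂ) :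
    ent (A * Aᴴ) + ent (B * Bᴴ) + ent (C * Cᴴ)
      + Fsc (A * Aᴴ).trace.re (B * Bᴴ).trace.re (C * Cᴴ).trace.re ≤
    ent (fromBlocks A B C 0 * (fromBlocks A B C 0)ᴴ) := by
  sorry
end Rect

section Two
variable {ι ε : Type} [Fintype ι] [DecidableEq ι] [Fintype ε] [DecidableEq ε]

-- G4 TwoG.lean (imports RectE, ScalG, EtaTwo, Kraus): one of the two channels
theorem two_kraus {γ ν : ℝ} (h0 : 0 < γ) (h1 : γ ≤ 1) (n0 : 0 < ν) (n1 : ν < 1) (s : ℝ)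
    (hs : s = 1 ∨ s = -1) (K : ε → Matrix ι ι ℂ) (hK : ∑ e, (K e)ᴴ * K e = 1) (f g : ι → ℂ)
    (hfg : (∑ i, ‖f i‖ ^ 2) + (∑ i, ‖g i‖ ^ 2) = 1) (him : (∑ i, f i * star (g i)).im = 0) :
    ∃ h : Fin 3 → ι → ℂ, ∑ m, outer (h m) (h m) = outer f f + outer g g ∧
      ∑ m, (ent (kr K (outer (h m) (h m))) - Real.negMulLog (outer (h m) (h m)).trace.re)
        + eta2 (del γ ν (∑ i, ‖g i‖ ^ 2)) ≤ ent (Tm γ ν s K f g * (Tm γ ν s K f g)ᴴ) := by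
  sorry

-- G2 PhaseG.lean
theorem exists_phase (f g : ι → ℂ) :
    ∃ u : ℂ, star u * u = 1 ∧ (∑ i, f i * star ((u • g) i)).im = 0 := by
  sorry

theorem dchanG_phase (γ ν : ℝ) (K : ε → Matrix ι ι ℂ) (f g : ι → ℂ) (u : ℂ) (hu : star u * u = 1) :
    ent (dchanG γ ν (kr K) (outer (Sum.elim f (u • g)) (Sum.elim f (u • g)))) =
      ent (dchanG γ ν (kr K) (outer (Sum.elim f g) (Sum.elim f g))) := by
  sorry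

-- G5 PureG.lean (imports TwoG, PhaseG, EntConc)
theorem dchanG_pure_avg {γ ν : ℝ} (h0 : 0 < γ) (h1 : γ ≤ 1) (n0 : 0 < ν) (n1 : ν < 1)
    (K : ε → Matrix ι ι ℂ) (f g : ι → ℂ) :
    dchanG γ ν (kr K) (outer (Sum.elim f g) (Sum.elim f g)) =
      ((1 / 2 : ℝ) : ℂ) • (Tm γ ν 1 K f g * (Tm γ ν 1 K f g)ᴴ)
        + ((1 / 2 : ℝ) : ℂ) • (Tm γ ν (-1) K f g * (Tm γ ν (-1) K f g)ᴴ) := by
  sorry

theorem pure_gen {γ ν : ℝ} (h0 : 0 < γ) (h1 : γ ≤ 1) (n0 : 0 < ν) (n1 : ν < 1)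
    (K : ε → Matrix ι ι ℂ) (hK : ∑ e, (K e)ᴴ * K e = 1) (f g : ι → ℂ)
    (hfg : (outer f f).trace.re + (outer g g).trace.re = 1) :
    ∃ h : Fin 2 × Fin 3 → ι → ℂ, ∑ m, outer (h m) (h m) = outer f f + outer g g ∧
      ∑ m, (ent (kr K (outer (h m) (h m))) - Real.negMulLog (outer (h m) (h m)).trace.re)
        + eta2 (del γ ν (outer g g).trace.re) ≤
      ent (dchanG γ ν (kr K) (outer (Sum.elim f g) (Sum.elim f g))) := by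
  sorry

-- G6 UpperG.lean
theorem dchanG_kr {γ ν : ℝ} (h0 : 0 ≤ γ) (h1 : γ ≤ 1) (n0 : 0 ≤ ν) (n1 : ν ≤ 1)
    (K : ε → Matrix ι ι ℂ) : ∃ K' : (ε ⊕ ε) ⊕ (ε ⊕ ε) → Matrix (ι ⊕ ι) (ι ⊕ ι) ℂ,
      dchanG γ ν (kr K) = kr K' ∧
      (∑ e, (K e)ᴴ * K e = 1 → ∑ e, (K' e)ᴴ * K' e = 1) := by
  sorry

theorem upper_g {γ ν : ℝ} (h0 : 0 < γ) (h1 : γ ≤ 1) (n0 : 0 < ν) (n1 : ν < 1)
    (K : ε → Matrix ι ι ℂ) (hK : ∑ e, (K e)ᴴ * K e = 1) (r : ℝ)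
    (hr : r ∈ hol (dchanG γ ν (kr K))) :
    ∃ r1 ∈ hol (gadc γ ν), ∃ r2 ∈ hol (kr K), r ≤ r1 + r2 := by
  sorry

-- G7 LowerG.lean
theorem lower_g {γ ν : ℝ} (h0 : 0 ≤ γ) (h1 : γ ≤ 1) (n0 : 0 ≤ ν) (n1 : ν ≤ 1)
    (K : ε → Matrix ι ι ℂ) (hK : ∑ e, (K e)ᴴ * K e = 1) (r1 r2 : ℝ) (hr1 : r1 ∈ hol (gadc γ ν))
    (hr2 : r2 ∈ hol (kr K)) : r1 + r2 ∈ hol (dchanG γ ν (kr K)) := by
  sorry
end Two

section TensorG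
-- G8 TensorG.lean
theorem gpow_eq_kr_g {γ ν : ℝ} (h0 : 0 ≤ γ) (h1 : γ ≤ 1) (n0 : 0 ≤ ν) (n1 : ν ≤ 1) (n : ℕ) :
    ∃ K : (Fin n → Fin 4) → Matrix (Fin n → Fin 2) (Fin n → Fin 2) ℂ,
      ∑ e, (K e)ᴴ * K e = 1 ∧ gpow γ ν n = kr K := by
  sorry

theorem hol_gpow_succ_g (γ ν : ℝ) (n : ℕ) :
    hol (gpow γ ν (n + 1)) = hol (dchanG γ ν (gpow γ ν n)) := by
  sorry

theorem hol_gpow_zero_g (γ ν : ℝ) : hol (gpow γ ν 0) = {0} := by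
  sorry
end TensorG

section MainG
-- G9 MainG.lean
theorem main_gen {γ ν : ℝ} (h0 : 0 < γ) (h1 : γ ≤ 1) (n0 : 0 < ν) (n1 : ν < 1) :
    (∀ n, BddAbove (holevoSet (gpow γ ν n))) ∧
    (∀ n : ℕ, chi (gpow γ ν n) = n * chi (gadc γ ν)) ∧
    capacity γ ν = chi (gadc γ ν) := by
  sorry
end MainG

end Vale.Agent.P358
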