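import Vale.Agent.P358.Defs

namespace Vale.Agent.P358

open Matrix
open scoped ComplexOrder

theorem pin {ι : Type*} [Fintype ι] [DecidableEq ι] (U V : Matrix ι ι ℂ) (hU : U.PosDef)
    (hV : V.PosDef) (a : ι → ℝ) :
    (U.det * V.det).re * ∏ k, ((U k k).re * (V k k).re + a k ^ 2) ≤
      (fromBlocks U (diagonal fun k => (a k : ℂ)) (-(diagonal fun k => (a k : ℂ))) V).det.re *
        ∏ k, ((U k k).re * (V k k).re) := by
  sorry

end Vale.Agent.P358
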