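import Vale.Agent.P358.DefsG

/-! temporary: statements of ScalG.lean -/

namespace Vale.Agent.P358

open Matrix
open scoped ComplexOrder

section Scal
-- G3 ScalG.lean: the zero corner
theorem exists_LR {γ ν : ℝ} (h0 : 0 < γ) (h1 : γ ≤ 1) (n0 : 0 < ν) (n1 : ν < 1) (s : ℝ)
    (hs : s = 1 ∨ s = -1) :
    ∃ L R : Matrix (Fin 2) (Fin 2) ℂ, Lᴴ * L = 1 ∧ L * Lᴴ = 1 ∧ Rᴴ * R = 1 ∧ R * Rᴴ = 1 ∧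
      (∀ x y : ℂ, (L * arr γ ν s x y * R) 1 1 = 0) ∧
      ∀ (ι : Type) (_ : Fintype ι) (f g : ι → ℂ), (∑ i, f i * star (g i)).im = 0 →
        (1 - γ * ν) * (γ * ν) * (∑ i, ‖f i‖ ^ 2) ^ 2
          + (1 - γ * (1 - ν)) * (γ * (1 - ν)) * (∑ i, ‖g i‖ ^ 2) ^ 2
          + 2 * (γ * (1 - ν)) * (γ * ν) * ((∑ i, ‖f i‖ ^ 2) * (∑ i, ‖g i‖ ^ 2)) ≤
        (∑ i, ‖(L * arr γ ν s (f i) (g i) * R) 0 1‖ ^ 2) *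
          (∑ i, ‖(L * arr γ ν s (f i) (g i) * R) 1 0‖ ^ 2) := by
  sorry

theorem tt_norm {γ ν : ℝ} (h0 : 0 < γ) (h1 : γ ≤ 1) (n0 : 0 < ν) (n1 : ν < 1) (s : ℝ)
    (hs : s = 1 ∨ s = -1) : tt γ ν s * star (tt γ ν s) = ((1 - γ * (1 - ν) : ℝ) : ℂ) := by
  sorry

theorem ww_norm {γ ν : ℝ} (h0 : 0 < γ) (n0 : 0 < ν) (s : ℝ)
    (hs : s = 1 ∨ s = -1) : ww γ ν s * star (ww γ ν s) = ((γ * ν : ℝ) : ℂ) := by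
  sorry

theorem tt_avg {γ ν : ℝ} (h0 : 0 < γ) (h1 : γ ≤ 1) (n0 : 0 < ν) (n1 : ν < 1) :
    ((Real.sqrt (1 - γ * ν) : ℝ) : ℂ) * (tt γ ν 1 + tt γ ν (-1))
      = 2 * ((Real.sqrt (1 - γ) : ℝ) : ℂ) := by
  sorry
end Scal

end Vale.Agent.P358
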